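import Vale.Agent.P073.ConicalBody

/-!
# Sets given by signs of affine functions; polytopes
-/

open Set Metric Topology Filter

namespace P073

variable {E : Type} [NormedAddCommGroup E] [NormedSpace ℝ E]

/-- a segment which ends in the intrinsic interior can be prolonged -/
theorem exists_beyond {s : Set E} {x y : E} (hx : x ∈ s) (hy : y ∈ intrinsicInterior ℝ s) :
    ∃ t : ℝ, 1 < t ∧ AffineMap.lineMap x y t ∈ s := by
  obtain ⟨y, hy', rfl⟩ := mem_intrinsicInterior.1 hy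
  have hx' := subset_affineSpan ℝ s hx
  let f : ℝ → affineSpan ℝ s := fun t => ⟨AffineMap.lineMap x y.1 t, AffineMap.lineMap_mem t hx' y.2⟩
  have hf : Continuous f := AffineMap.lineMap_continuous.subtype_mk _
  have h1 : f 1 = y := Subtype.ext (AffineMap.lineMap_apply_one _ _)
  have h2 : ∀ᶠ t in 𝓝 (1 : ℝ), f t ∈ ((↑) ⁻¹' s : Set (affineSpan ℝ s)) :=
    hf.continuousAt.eventually_mem (by rw [h1]; exact mem_interior_iff_mem_nhds.1 hy')
  obtain ⟨t, h3, h4⟩ := ((h2.filter_mono nhdsWithin_le_nhds).and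
    (self_mem_nhdsWithin (s := Ioi (1 : ℝ)))).exists
  exact ⟨t, h4, h3⟩

/-- the points with the same signs as `x` -/
def sgnO (Φ : Set (E →ᵃ[ℝ] ℝ)) (x : E) : Set E :=
  {y | ∀ ℓ ∈ Φ, SignType.sign (ℓ y) = SignType.sign (ℓ x)}

/-- the points with weakly the same signs as `x` -/
def sgnC (Φ : Set (E →ᵃ[ℝ] ℝ)) (x : E) : Set E :=
  {y | ∀ ℓ ∈ Φ, (0 ≤ ℓ x → 0 ≤ ℓ y) ∧ (ℓ x ≤ 0 → ℓ y ≤ 0)}

variable {Φ : Set (E →ᵃ[ℝ] ℝ)} {x y : E}

theorem sign_eq_iff {a b : ℝ} :
    SignType.sign a = SignType.sign b ↔ (0 ≤ a ↔ 0 ≤ b) ∧ (a ≤ 0 ↔ b ≤ 0) := by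
  rcases lt_trichotomy a 0 with h | h | h <;> rcases lt_trichotomy b 0 with h' | h' | h' <;>
    simp [h, h', le_of_lt, not_le.2, sign_pos, sign_neg]

theorem mem_sgnO_self : x ∈ sgnO Φ x := fun _ _ => rfl

theorem sgnO_subset : sgnO Φ x ⊆ sgnC Φ x := fun _ h ℓ hl =>
  ⟨(sign_eq_iff.1 (h ℓ hl)).1.2, (sign_eq_iff.1 (h ℓ hl)).2.2⟩

theorem convex_sgnC : Convex ℝ (sgnC Φ x) := by
  intro a ha b hb s t hs ht hst ℓ hl
  rw [Convex.combo_affine_apply hst]
  refine ⟨fun h => ?_, fun h => ?_⟩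
  · exact add_nonneg (mul_nonneg hs ((ha ℓ hl).1 h)) (mul_nonneg ht ((hb ℓ hl).1 h))
  · exact add_nonpos (mul_nonpos_of_nonneg_of_nonpos hs ((ha ℓ hl).2 h))
      (mul_nonpos_of_nonneg_of_nonpos ht ((hb ℓ hl).2 h))

variable [FiniteDimensional ℝ E]

theorem isClosed_sgnC : IsClosed (sgnC Φ x) := by
  simp only [sgnC, ofPred_forall, ofPred_and]
  refine isClosed_iInter fun ℓ => isClosed_iInter fun _ => IsClosed.inter ?_ ?_
  · exact isClosed_iInter fun _ => isClosed_le continuous_const ℓ.continuous_of_finiteDimensional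
  · exact isClosed_iInter fun _ => isClosed_le ℓ.continuous_of_finiteDimensional continuous_const

theorem locCone_le (ℓ : E →ᵃ[ℝ] ℝ) : LocCone {y | ℓ y ≤ 0} :=
  locCone_setOf_le ℓ.continuous_of_finiteDimensional
    (conicalOn_of_affine ℓ locCone_univ.conicalSet) 0

theorem locCone_ge (ℓ : E →ᵃ[ℝ] ℝ) : LocCone {y | 0 ≤ ℓ y} :=
  locCone_setOf_ge ℓ.continuous_of_finiteDimensional
    (conicalOn_of_affine ℓ locCone_univ.conicalSet) 0

theorem locCone_sgnC (hΦ : Φ.Finite) : LocCone (sgnC Φ x) := by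
  have := hΦ.to_subtype
  have h : sgnC Φ x = (⋂ ℓ : {ℓ : Φ // 0 ≤ ℓ.1 x}, {y | 0 ≤ ℓ.1.1 y}) ∩
      ⋂ ℓ : {ℓ : Φ // ℓ.1 x ≤ 0}, {y | ℓ.1.1 y ≤ 0} := by
    ext y
    simp [sgnC, forall_and]
  rw [h]
  exact (LocCone.iInter_finite fun _ => locCone_ge _).inter
    (LocCone.iInter_finite fun _ => locCone_le _)

theorem intrinsicInterior_sgnC (hΦ : Φ.Finite) : intrinsicInterior ℝ (sgnC Φ x) = sgnO Φ x := by
  refine Subset.antisymm (fun y hy ℓ hl => ?_) fun y hy => ?_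
  · obtain ⟨t, ht, h⟩ := exists_beyond (sgnO_subset mem_sgnO_self) hy
    have h1 := h ℓ hl
    have h2 := intrinsicInterior_subset hy ℓ hl
    rw [AffineMap.apply_lineMap, AffineMap.lineMap_apply_ring] at h1
    refine sign_eq_iff.2 ⟨⟨fun h3 => ?_, h2.1⟩, fun h3 => ?_, h2.2⟩
    · by_contra h4
      have h5 := (not_le.1 h4).le
      nlinarith [h1.2 h5, h2.2 h5, not_le.1 h4]
    · by_contra h4
      have h5 := (not_le.1 h4).le
      nlinarith [h1.1 h5, h2.1 h5, not_le.1 h4]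
  · have hy' := subset_affineSpan ℝ _ (sgnO_subset hy)
    refine mem_intrinsicInterior.2 ⟨⟨y, hy'⟩, mem_interior_iff_mem_nhds.2 ?_, rfl⟩
    refine (hΦ.eventually_all (p := fun ℓ (z : affineSpan ℝ (sgnC Φ x)) =>
      (0 ≤ ℓ x → 0 ≤ ℓ z) ∧ (ℓ x ≤ 0 → ℓ z ≤ 0))).2 fun ℓ hl => ?_
    have hc : Continuous fun z : affineSpan ℝ (sgnC Φ x) => ℓ z :=
      ℓ.continuous_of_finiteDimensional.comp continuous_subtype_val
    have h1 := sign_eq_iff.1 (hy ℓ hl)
    rcases lt_trichotomy (ℓ x) 0 with h | h | h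
    · have h2 : ℓ y < 0 := not_le.1 fun h3 => not_le.2 h (h1.1.1 h3)
      exact (hc.continuousAt.eventually_lt continuousAt_const h2).mono fun z hz =>
        ⟨fun h3 => absurd h3 (not_le.2 h), fun _ => hz.le⟩
    · refine Eventually.of_forall fun z => ?_
      have h2 : affineSpan ℝ (sgnC Φ x) ≤ (AffineSubspace.mk' 0 ⊥).comap ℓ :=
        affineSpan_le.2 fun w hw => by
          have h3 : ℓ w = 0 := le_antisymm ((hw ℓ hl).2 h.le) ((hw ℓ hl).1 h.ge)
          simp [h3]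
      have h3 : ℓ z = 0 := by simpa using h2 z.2
      exact ⟨fun _ => h3.ge, fun _ => h3.le⟩
    · have h2 : 0 < ℓ y := not_le.1 fun h3 => not_le.2 h (h1.2.1 h3)
      exact (continuousAt_const.eventually_lt hc.continuousAt h2).mono fun z hz =>
        ⟨fun _ => hz.le, fun h3 => absurd h3 (not_le.2 h)⟩

theorem intrinsicFrontier_eq {s : Set E} (hs : IsClosed s) :
    intrinsicFrontier ℝ s = s \ intrinsicInterior ℝ s := by
  rw [← closure_sdiff_intrinsicInterior, hs.closure_eq]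

theorem diff_intrinsicFrontier {s : Set E} (hs : IsClosed s) :
    s \ intrinsicFrontier ℝ s = intrinsicInterior ℝ s := by
  rw [← closure_sdiff_intrinsicFrontier, hs.closure_eq]

omit [FiniteDimensional ℝ E] in
/-- sets of full dimension -/
theorem intrinsicInterior_of_top {s : Set E} (hs : affineSpan ℝ s = ⊤) :
    intrinsicInterior ℝ s = interior s := by
  refine Subset.antisymm (fun y hy => ?_) interior_subset_intrinsicInterior
  obtain ⟨y, hy', rfl⟩ := mem_intrinsicInterior.1 hy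
  have h : IsOpen (affineSpan ℝ s : Set E) := by rw [hs]; exact isOpen_univ
  exact h.isOpenEmbedding_subtypeVal.isOpenMap.image_interior_subset _ ⟨y, hy', rfl⟩
    |> interior_mono (image_preimage_subset _ _)

/-- sets given by finitely many affine inequalities -/
def HPoly (C : Set E) : Prop := ∃ G : Finset (E →ᵃ[ℝ] ℝ), C = {x | ∀ ℓ ∈ G, ℓ x ≤ 0}

omit [FiniteDimensional ℝ E] in
theorem hPoly_of_finite {ι : Type} [Finite ι] (ℓ : ι → E →ᵃ[ℝ] ℝ) : HPoly {x | ∀ i, ℓ i x ≤ 0} :=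
  ⟨(finite_range ℓ).toFinset, by simp⟩

theorem HPoly.locCone {C : Set E} (h : HPoly C) : LocCone C := by
  obtain ⟨G, rfl⟩ := h
  have h : {x | ∀ ℓ ∈ G, ℓ x ≤ 0} = ⋂ ℓ : G, {x | ℓ.1 x ≤ 0} := by
    ext
    simp
  rw [h]
  exact LocCone.iInter_finite fun ℓ => locCone_le _

/-- a simplex is given by finitely many affine inequalities -/
theorem hPoly_simplex {s : Set E} (hs : AffineIndependent ℝ ((↑) : s → E)) :
    HPoly (convexHull ℝ s) := by
  obtain ⟨t, hst, ht, htop⟩ := exists_subset_affineIndependent_affineSpan_eq_top hs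
  have := (finite_set_of_fin_dim_affineIndependent ℝ ht).fintype
  let b : AffineBasis t ℝ E := ⟨(↑), ht, by rw [Subtype.range_coe, htop]⟩
  have h : convexHull ℝ s = {x | ∀ i : t ⊕ {i : t // i.1 ∉ s},
      Sum.elim (fun i => -b.coord i) (fun i => b.coord i.1) i x ≤ 0} := by
    classical
    refine Subset.antisymm (convexHull_min (fun x hx => ?_) ?_) fun x hx => ?_
    · have h1 : ∀ i, b.coord i x = if i = ⟨x, hst hx⟩ then 1 else 0 := fun i =>
        b.coord_apply i ⟨x, hst hx⟩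
      rintro (i | i)
      · change -b.coord i x ≤ 0
        rw [h1]
        split_ifs <;> norm_num
      · change b.coord i.1 x ≤ 0
        rw [h1, if_neg fun h => i.2 (by rw [h]; exact hx)]
    · rw [ofPred_forall]
      exact convex_iInter fun i => (convex_Iic (0 : ℝ)).affine_preimage _
    · have h1 : ∀ i, 0 ≤ b.coord i x := fun i => neg_nonpos.1 (hx (Sum.inl i))
      rw [← b.linear_combination_coord_eq_self x, ← finsum_eq_sum_of_fintype]
      refine (convex_convexHull ℝ s).finsum_mem h1 ?_ fun i hi => subset_convexHull ℝ s ?_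
      · rw [finsum_eq_sum_of_fintype, b.sum_coord_apply_eq_one]
      · by_contra h2
        exact hi (le_antisymm (hx (Sum.inr ⟨i, h2⟩)) (h1 i))
  rw [h]
  exact hPoly_of_finite _

/-- small compact polytopes around a point -/
theorem exists_cube {U : Set E} (hU : U ∈ 𝓝 x) :
    ∃ C, C ∈ 𝓝 x ∧ C ⊆ U ∧ IsCompact C ∧ HPoly C := by
  let e := (Module.finBasis ℝ E).equivFun.toContinuousLinearEquiv
  have h1 : e.symm ⁻¹' U ∈ 𝓝 (e x) :=
    e.symm.continuous.continuousAt.preimage_mem_nhds (by rwa [e.symm_apply_apply])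
  obtain ⟨ρ, hρ, h2⟩ := nhds_basis_closedBall.mem_iff.1 h1
  refine ⟨e ⁻¹' closedBall (e x) ρ, e.continuous.continuousAt.preimage_mem_nhds
    (closedBall_mem_nhds _ hρ), fun y hy => by simpa using h2 hy,
    e.toHomeomorph.isCompact_preimage.2 (isCompact_closedBall _ _), ?_⟩
  let c := fun i => ((LinearMap.proj i).comp e.toLinearEquiv.toLinearMap : E →ₗ[ℝ] ℝ).toAffineMap
  have h3 : e ⁻¹' closedBall (e x) ρ = {y | ∀ i, Sum.elim
      (fun i => c i - AffineMap.const ℝ E (e x i + ρ))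
      (fun i => AffineMap.const ℝ E (e x i - ρ) - c i) i y ≤ 0} := by
    ext y
    rw [mem_preimage, closedBall_pi _ hρ.le]
    simp only [mem_univ_pi, Real.closedBall_eq_Icc, mem_Icc, mem_ofPred_eq, Sum.forall, forall_and]
    exact ⟨fun h => ⟨fun i => sub_nonpos.2 (h.2 i), fun i => sub_nonpos.2 (h.1 i)⟩,
      fun h => ⟨fun i => sub_nonpos.1 (h.2 i), fun i => sub_nonpos.1 (h.1 i)⟩⟩
  rw [h3]
  exact hPoly_of_finite _

end P073
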