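import Vale.Agent.P073Z.Defs
import Vale.Agent.P073Z.A7a.Sgn

/-!
# Cells of convex complexes
-/

open Set Metric Topology Filter

namespace P073

variable {E : Type} [NormedAddCommGroup E] [NormedSpace ℝ E] [FiniteDimensional ℝ E]

omit [FiniteDimensional ℝ E] in
theorem intrinsicInterior_segment {p q : E} (hpq : p ≠ q) :
    intrinsicInterior ℝ (segment ℝ p q) = segment ℝ p q \ {p, q} := by
  have h0 : ∀ {p q : E}, p ≠ q → q ∉ intrinsicInterior ℝ (segment ℝ p q) := by
    intro p q hpq h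
    obtain ⟨t, ht, h1⟩ := exists_beyond (left_mem_segment ℝ p q) h
    rw [segment_eq_image_lineMap] at h1
    obtain ⟨s, hs, h2⟩ := h1
    exact absurd hs.2 (not_le.2 (AffineMap.lineMap_injective ℝ hpq h2 ▸ ht))
  refine Subset.antisymm (fun y hy => ⟨intrinsicInterior_subset hy, ?_⟩) fun y hy => ?_
  · rintro (rfl | rfl)
    · exact h0 hpq.symm (segment_symm ℝ y q ▸ hy)
    · exact h0 hpq hy
  · obtain ⟨l, hl⟩ := SeparatingDual.exists_eq_one (R := ℝ) (sub_ne_zero.2 hpq.symm)
    have h1 : ∀ t : ℝ, l (AffineMap.lineMap p q t - p) = t := fun t => by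
      rw [AffineMap.lineMap_apply, vadd_eq_add, add_sub_cancel_right, vsub_eq_sub, map_smul, hl,
        smul_eq_mul, mul_one]
    have h2 : affineSpan ℝ (segment ℝ p q) ≤ line[ℝ, p, q] := affineSpan_le.2 (by
      rw [segment_eq_image_lineMap]
      rintro _ ⟨t, -, rfl⟩
      exact AffineMap.lineMap_mem_affineSpan_pair t p q)
    refine mem_intrinsicInterior.2 ⟨⟨y, subset_affineSpan ℝ _ hy.1⟩,
      mem_interior_iff_mem_nhds.2 ?_, rfl⟩
    have hc : Continuous fun z : affineSpan ℝ (segment ℝ p q) => l (z - p) := by fun_prop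
    have h3 : l (y - p) ∈ Ioo (0 : ℝ) 1 := by
      obtain ⟨h4, h5⟩ := hy
      rw [segment_eq_image_lineMap] at h4
      obtain ⟨t, ht, rfl⟩ := h4
      rw [h1]
      refine ⟨ht.1.lt_of_ne ?_, ht.2.lt_of_ne ?_⟩
      · rintro rfl
        exact h5 (Or.inl (AffineMap.lineMap_apply_zero _ _))
      · rintro rfl
        exact h5 (Or.inr (AffineMap.lineMap_apply_one _ _))
    refine mem_of_superset (hc.continuousAt.preimage_mem_nhds (isOpen_Ioo.mem_nhds h3))
      fun z hz => ?_
    obtain ⟨t, ht⟩ := mem_affineSpan_pair_iff_exists_lineMap_eq.1 (h2 z.2)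
    have h4 : l (z - p) ∈ Ioo (0 : ℝ) 1 := hz
    rw [← ht, h1] at h4
    exact (segment_eq_image_lineMap ℝ p q).ge ⟨t, Ioo_subset_Icc_self h4, ht⟩

theorem intrinsicFrontier_segment {p q : E} (hpq : p ≠ q) :
    intrinsicFrontier ℝ (segment ℝ p q) = {p, q} := by
  rw [intrinsicFrontier_eq (isClosed_segment' p q), intrinsicInterior_segment hpq,
    sdiff_sdiff_cancel_left]
  exact insert_subset (left_mem_segment ℝ p q) (singleton_subset_iff.2 (right_mem_segment ℝ p q))

/-- a compact convex set of dimension one is a segment -/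
theorem exists_segment {K : Set E} (hK : IsCompact K) (hc : Convex ℝ K)
    (hd : Module.finrank ℝ (vectorSpan ℝ K) = 1) : ∃ p q, p ≠ q ∧ K = segment ℝ p q := by
  obtain ⟨v, hv0, hv⟩ := finrank_eq_one_iff'.1 hd
  have hv1 : (v : E) ≠ 0 := fun h => hv0 (Subtype.ext h)
  obtain ⟨a, ha⟩ : K.Nonempty := by
    by_contra h
    rw [not_nonempty_iff_eq_empty.1 h, vectorSpan_empty, finrank_bot] at hd
    exact zero_ne_one hd
  let f : ℝ →ᵃ[ℝ] E := AffineMap.lineMap a (a + v)
  have hf : ∀ t, f t = t • (v : E) + a := fun t => by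
    rw [AffineMap.lineMap_apply, vadd_eq_add, vsub_eq_sub, add_sub_cancel_left]
  have h1 : f '' (f ⁻¹' K) = K := image_preimage_eq_of_subset fun y hy => by
    obtain ⟨t, ht⟩ := hv ⟨_, vsub_mem_vectorSpan ℝ hy ha⟩
    refine ⟨t, ?_⟩
    rw [hf, eq_comm, ← sub_eq_iff_eq_add]
    exact (congrArg Subtype.val ht).symm
  have h2 : IsClosedEmbedding f := by
    rw [show (f : ℝ → E) = (Homeomorph.addRight a) ∘ fun t : ℝ => t • (v : E) from funext hf]
    exact (Homeomorph.addRight a).isClosedEmbedding.comp (isClosedEmbedding_smul_left hv1)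
  have h3 : (0 : ℝ) ∈ f ⁻¹' K := by
    rw [mem_preimage, hf, zero_smul, zero_add]
    exact ha
  have h4 := eq_Icc_of_connected_compact
    ((hc.affine_preimage f).isConnected ⟨0, h3⟩) (h2.isCompact_preimage hK)
  generalize sInf (f ⁻¹' K) = s, sSup (f ⁻¹' K) = t at h4
  rw [h4] at h1 h3
  rw [← segment_eq_Icc (h3.1.trans h3.2), image_segment] at h1
  refine ⟨_, _, fun h => ?_, h1.symm⟩
  rw [← h1, h, segment_same, vectorSpan_singleton, finrank_bot] at hd
  exact zero_ne_one hd

namespace RCx.Cvx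

variable {K : RCx E}

omit [FiniteDimensional ℝ E] in
theorem inter (h : K.Cvx) (i j : K.ι) :
    Convex ℝ (K.cell i ∩ K.cell j) ∧ IsCompact (K.cell i ∩ K.cell j) :=
  ⟨(h i).1.inter (h j).1, (K.ball i).isCompact.inter_right (K.ball j).isClosed⟩

theorem ocell_eq (h : K.Cvx) (i : K.ι) : K.ocell i = intrinsicInterior ℝ (K.cell i) := by
  rw [ocell, (h i).2.1, diff_intrinsicFrontier (K.ball i).isClosed]

omit [FiniteDimensional ℝ E] in
theorem cell_nonempty (_h : K.Cvx) {i : K.ι} : (K.cell i).Nonempty := by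
  obtain ⟨-, φ, -⟩ := K.ball i
  exact ⟨_, φ.mapsTo_inv (mem_closedBall_self zero_le_one)⟩

/-- the interior of a cell of top dimension is the open cell -/
theorem interior_eq (h : K.Cvx) {i : K.ι} (hd : K.dim i = Module.finrank ℝ E) :
    interior (K.cell i) = K.ocell i := by
  rw [h.ocell_eq, intrinsicInterior_of_top]
  rw [AffineSubspace.affineSpan_eq_top_iff_vectorSpan_eq_top_of_nonempty ℝ E E h.cell_nonempty]
  exact Submodule.eq_top_of_finrank_eq ((h i).2.2.symm.trans hd)

theorem frontier_eq (h : K.Cvx) {i : K.ι} (hd : K.dim i = Module.finrank ℝ E) :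
    frontier (K.cell i) = K.bd i := by
  rw [(K.ball i).isClosed.frontier_eq, h.interior_eq hd, ocell,
    sdiff_sdiff_cancel_left (K.ball i).1]

/-- cells of lower dimension have no interior -/
theorem interior_empty (h : K.Cvx) {i : K.ι} (hd : K.dim i ≠ Module.finrank ℝ E) :
    interior (K.cell i) = ∅ := by
  by_contra h1
  have h2 := ((h i).1.interior_nonempty_iff_affineSpan_eq_top).1 (nonempty_iff_ne_empty.2 h1)
  rw [AffineSubspace.affineSpan_eq_top_iff_vectorSpan_eq_top_of_nonempty ℝ E E h.cell_nonempty]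
    at h2
  exact hd (by rw [(h i).2.2, h2, finrank_top])

/-- a cell of dimension one is a segment -/
theorem segment (h : K.Cvx) {i : K.ι} (hd : K.dim i = 1) :
    ∃ p q, p ≠ q ∧ K.cell i = segment ℝ p q ∧ K.bd i = {p, q} := by
  obtain ⟨p, q, h1, h2⟩ := exists_segment (K.ball i).isCompact (h i).1 ((h i).2.2.symm.trans hd)
  exact ⟨p, q, h1, h2, by rw [(h i).2.1, h2, intrinsicFrontier_segment h1]⟩

end RCx.Cvx

end P073
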